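import Vale.Agent.P327.Defs
import Vale.Agent.P327.Bdl.B1

/-!
# Rigidity of the Turing degrees (P327, first question)

Every automorphism of the partial order of the Turing degrees is the identity.
-/

namespace Vale.Agent.Results.P327.Rigidity

/-- Every order automorphism `π` of the Turing degrees fixes every Turing degree. -/
theorem result (π : Vale.Agent.P327.TDeg ≃o Vale.Agent.P327.TDeg) (a : Vale.Agent.P327.TDeg) :
    π a = a :=
  Vale.Agent.P327.main_of (fun π a => Vale.Agent.P327.Auto.g_red_self π a) π a

end Vale.Agent.Results.P327.Rigidity
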